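import Vale.Agent.P254.H54.Commute

/-!
P254/P248, equality case on the (SP) line, finite-dimensional algebra (helper372).

`frame_of_symm` : a totally symmetric family `L a` of symmetric matrices, commuting, with
`∑ L a * L a = 1`, is `L a b c = ∑ i, e i * U i a * U i b * U i c` with `U` orthogonal, `e i = ± 1`.
-/

open Matrix

namespace Vale.Agent.P254.SP.H372

variable {n : ℕ}

theorem orth_rows {U : Matrix (Fin n) (Fin n) ℝ} (hU : U * Uᵀ = 1) (i j : Fin n) :
    ∑ a, U i a * U j a = if i = j then 1 else 0 := by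
  have h := congrFun (congrFun hU i) j
  rw [Matrix.mul_apply, Matrix.one_apply] at h
  rw [← h]
  exact Finset.sum_congr rfl fun b _ => by rw [Matrix.transpose_apply]

theorem orth_cols {U : Matrix (Fin n) (Fin n) ℝ} (hU : U * Uᵀ = 1) (a b : Fin n) :
    ∑ i, U i a * U i b = if a = b then 1 else 0 := by
  have hU' : Uᵀ * U = 1 := mul_eq_one_comm.mp hU
  have h := congrFun (congrFun hU' a) b
  rw [Matrix.mul_apply, Matrix.one_apply] at h
  rw [← h]
  exact Finset.sum_congr rfl fun b _ => by rw [Matrix.transpose_apply]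

/-- **(EQ4)** -/
theorem frame_of_symm (L : Fin n → Matrix (Fin n) (Fin n) ℝ)
    (hs : ∀ a, (L a).IsSymm) (ht : ∀ a b c, L a b c = L b a c)
    (hc : ∀ a b, L a * L b = L b * L a) (h1 : ∑ a, L a * L a = 1) :
    ∃ (U : Matrix (Fin n) (Fin n) ℝ) (e : Fin n → ℝ), U * Uᵀ = 1 ∧
      (∀ i, e i = 1 ∨ e i = -1) ∧ ∀ a b c, L a b c = ∑ i, e i * U i a * U i b * U i c := by
  classical
  obtain ⟨U, t, hU, hTU⟩ := H54.odeco_of_commute (fun a b c => L a b c) (fun i j k => ht i j k)
    (fun i j k => by
      have := congrFun (congrFun (hs i) k) j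
      rw [Matrix.transpose_apply] at this
      exact this)
    (fun a b => hc a b)
  refine ⟨U, t, hU, fun i => ?_, hTU⟩
  -- `∑_a L_a² = ∑_l t_l² u_l u_lᵀ`
  have key : ∀ b c, (∑ l, t l ^ 2 * U l b * U l c) = if b = c then 1 else 0 := by
    intro b c
    have h2 : (∑ a, ∑ m, L a b m * L a m c) = if b = c then 1 else 0 := by
      have h := congrFun (congrFun h1 b) c
      rw [Matrix.sum_apply, Matrix.one_apply] at h
      rw [← h]
      exact Finset.sum_congr rfl fun a _ => (Matrix.mul_apply).symm
    rw [← h2]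
    have h3 : ∀ a m, L a b m * L a m c =
        ∑ l, ∑ l', (t l * t l' * U l b * U l' c) * (U l a * U l' a) * (U l m * U l' m) := by
      intro a m
      rw [hTU a b m, hTU a m c, Finset.sum_mul_sum]
      exact Finset.sum_congr rfl fun l _ => Finset.sum_congr rfl fun l' _ => by ring
    simp_rw [h3]
    have h4 : (∑ a, ∑ m, ∑ l, ∑ l',
        (t l * t l' * U l b * U l' c) * (U l a * U l' a) * (U l m * U l' m)) =
        ∑ l, ∑ l', (t l * t l' * U l b * U l' c) * (∑ a, U l a * U l' a) *
          (∑ m, U l m * U l' m) := by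
      have : ∀ l l', (t l * t l' * U l b * U l' c) * (∑ a, U l a * U l' a) *
          (∑ m, U l m * U l' m) =
          ∑ a, ∑ m, (t l * t l' * U l b * U l' c) * (U l a * U l' a) * (U l m * U l' m) := by
        intro l l'
        rw [mul_assoc, Finset.sum_mul_sum, Finset.mul_sum]
        refine Finset.sum_congr rfl fun a _ => ?_
        rw [Finset.mul_sum]
        exact Finset.sum_congr rfl fun m _ => by ring
      simp_rw [this]
      rw [Finset.sum_congr rfl fun a _ => Finset.sum_comm]
      rw [Finset.sum_comm]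
      refine Finset.sum_congr rfl fun l _ => ?_
      rw [Finset.sum_congr rfl fun a _ => Finset.sum_comm]
      rw [Finset.sum_comm]
    rw [h4]
    simp_rw [orth_rows hU]
    refine Finset.sum_congr rfl fun l _ => ?_
    rw [Finset.sum_eq_single l]
    · rw [if_pos rfl]; ring
    · intro m _ hm
      rw [if_neg (Ne.symm hm)]; ring
    · simp
  have h5 : t i ^ 2 = 1 := by
    have e1 : ∑ b, ∑ c, U i b * U i c * (∑ l, t l ^ 2 * U l b * U l c) = 1 := by
      simp_rw [key]
      have : ∀ b c, U i b * U i c * (if b = c then (1 : ℝ) else 0) =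
          if b = c then U i b * U i b else 0 := by
        intro b c
        by_cases h : b = c
        · subst h; simp
        · simp [h]
      simp_rw [this]
      simp only [Finset.sum_ite_eq, Finset.mem_univ, if_true]
      rw [orth_rows hU]
      simp
    have e2 : ∑ b, ∑ c, U i b * U i c * (∑ l, t l ^ 2 * U l b * U l c) =
        ∑ l, t l ^ 2 * (∑ b, U i b * U l b) * (∑ c, U i c * U l c) := by
      have : ∀ l, t l ^ 2 * (∑ b, U i b * U l b) * (∑ c, U i c * U l c) =
          ∑ b, ∑ c, t l ^ 2 * (U i b * U l b) * (U i c * U l c) := by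
        intro l
        rw [mul_assoc, Finset.sum_mul_sum, Finset.mul_sum]
        refine Finset.sum_congr rfl fun a _ => ?_
        rw [Finset.mul_sum]
        exact Finset.sum_congr rfl fun m _ => by ring
      simp_rw [this]
      have e3 : ∀ b c, U i b * U i c * (∑ l, t l ^ 2 * U l b * U l c) =
          ∑ l, t l ^ 2 * (U i b * U l b) * (U i c * U l c) := by
        intro b c
        rw [Finset.mul_sum]
        exact Finset.sum_congr rfl fun l _ => by ring
      simp_rw [e3]
      have e4 : ∀ b, (∑ c, ∑ l, t l ^ 2 * (U i b * U l b) * (U i c * U l c)) =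
          ∑ l, ∑ c, t l ^ 2 * (U i b * U l b) * (U i c * U l c) := fun b => Finset.sum_comm
      simp_rw [e4]
      exact Finset.sum_comm
    rw [e2] at e1
    simp_rw [orth_rows hU] at e1
    rw [Finset.sum_eq_single i] at e1
    · simpa using e1
    · intro l _ hl
      rw [if_neg (Ne.symm hl)]; ring
    · simp
  have h6 : (t i - 1) * (t i + 1) = 0 := by nlinarith
  rcases mul_eq_zero.mp h6 with h | h
  · left; linarith
  · right; linarith

/-- the pencil `∑ x_a L_a` in the frame -/
theorem pencil_eq {L : Fin n → Matrix (Fin n) (Fin n) ℝ} {U : Matrix (Fin n) (Fin n) ℝ}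
    {e : Fin n → ℝ} (h : ∀ a b c, L a b c = ∑ i, e i * U i a * U i b * U i c) (x : Fin n → ℝ) :
    ∑ a, x a • L a = Uᵀ * Matrix.diagonal (fun i => e i * (U *ᵥ x) i) * U := by
  ext b c
  rw [Matrix.sum_apply, Matrix.mul_apply]
  simp_rw [Matrix.mul_diagonal, Matrix.transpose_apply, Matrix.smul_apply, smul_eq_mul, h,
    Matrix.mulVec, dotProduct, Finset.mul_sum, Finset.sum_mul]
  rw [Finset.sum_comm]
  exact Finset.sum_congr rfl fun i _ => Finset.sum_congr rfl fun a _ => by ring

/-- algebra of the second order: total symmetry of `L` and of the derivative of `H²` give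
commutation -/
theorem comm_of_second (L : Fin n → Matrix (Fin n) (Fin n) ℝ)
    (hs : ∀ a, (L a).IsSymm) (ht : ∀ a b c, L a b c = L b a c)
    (h2 : ∀ l i j k, (L k * L l + L l * L k) i j = (L j * L l + L l * L j) i k) :
    ∀ a b, L a * L b = L b * L a := by
  have hs' : ∀ a b c, L a b c = L a c b := by
    intro a b c
    have := congrFun (congrFun (hs a) c) b
    rw [Matrix.transpose_apply] at this
    exact this
  intro i l
  ext k j
  have h3 := h2 l i j k
  simp only [Matrix.add_apply, Matrix.mul_apply] at h3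
  have h4 : ∑ m, L l i m * L k m j = ∑ m, L l i m * L j m k := by
    refine Finset.sum_congr rfl fun m _ => ?_
    rw [hs' k m j, ht k j m, hs' j k m]
  rw [h4] at h3
  have h5 : ∑ m, L k i m * L l m j = ∑ m, L j i m * L l m k := by linarith
  simp only [Matrix.mul_apply]
  calc ∑ m, L i k m * L l m j = ∑ m, L k i m * L l m j :=
        Finset.sum_congr rfl fun m _ => by rw [ht i k m]
    _ = ∑ m, L j i m * L l m k := h5
    _ = ∑ m, L l k m * L i m j := by
        refine Finset.sum_congr rfl fun m _ => ?_
        rw [ht j i m, hs' i j m, hs' l m k]; ring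

end Vale.Agent.P254.SP.H372
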