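import Vale.Agent.P254.SP.H372.EqSecond
import Vale.Agent.P254.SP.IfaceA
import Vale.Agent.P254.SP.H620.DK

/-!
P254/P248, equality case on the (SP) line, steps (3) + (4) for `f = L = t'` (helper372).
-/

open MeasureTheory Set Filter Topology Matrix

namespace Vale.Agent.P254.SP.H372

open Vale.Agent.P227.M Vale.Agent.P254.S Vale.Agent.P254.SP Vale.Agent.P254.SP620

/-! ### the germ of `L` at `0` -/

theorem L'_eq (P : F1) (s : ℝ) : P.L' s = P.L s * (P.L s - s) := by
  have h1 : HasDerivAt (fun s => Real.log (P.L s)) (P.L' s / P.L s) s :=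
    (P.hL s).log (P.L_pos s).ne'
  have h2 : HasDerivAt (fun s => P.t s - s ^ 2 / 2 - Real.log (2 * Real.pi) / 2)
      (P.L s - s) s := by
    have h3 : HasDerivAt (fun s : ℝ => s ^ 2 / 2) s s := by
      have := (hasDerivAt_pow 2 s).div_const 2
      simpa using this
    have h4 := ((P.ht s).sub h3).sub_const (Real.log (2 * Real.pi) / 2)
    exact h4
  have h3 : (fun s => Real.log (P.L s)) = fun s => P.t s - s ^ 2 / 2 - Real.log (2 * Real.pi) / 2 :=
    funext P.log_L
  rw [h3] at h1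
  have h4 := h1.unique h2
  rw [div_eq_iff (P.L_pos s).ne'] at h4
  linarith

theorem hL' (P : F1) (s : ℝ) :
    HasDerivAt P.L' (P.L' s * (P.L s - s) + P.L s * (P.L' s - 1)) s := by
  have h1 : P.L' = fun s => P.L s * (P.L s - s) := funext (L'_eq P)
  have h2 := (P.hL s).mul ((P.hL s).sub (hasDerivAt_id s))
  rw [h1]
  rw [h1] at h2
  exact h2

theorem exp_neg_t0 (P : F1) : Real.exp (-P.t 0) ≤ 1 / 2 := by
  set c : ℝ := Real.exp (-(Real.log (2 * Real.pi) / 2)) with hc
  have hLe : ∀ s, P.L s = Real.exp (P.t s) * (Real.exp (-(1 / 2) * s ^ 2) * c) := by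
    intro s
    rw [hc, ← Real.exp_add, ← Real.exp_add, ← Real.exp_log (P.L_pos s), P.log_L]
    congr 1
    ring
  have hd : ∀ s, HasDerivAt (fun s => Real.exp (-P.t (-s))) (Real.exp (-(1 / 2) * s ^ 2) * c) s := by
    intro s
    have h1 : HasDerivAt (fun s => P.t (-s)) (-P.L (-s)) s := by
      have h := (P.ht (-s)).comp s (hasDerivAt_neg s)
      exact h.congr_deriv (by ring)
    have h2 := (h1.neg).exp
    refine h2.congr_deriv ?_
    rw [hLe (-s)]
    simp only [neg_neg, neg_sq]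
    rw [← mul_assoc, ← Real.exp_add]
    simp
  have hcont : Continuous fun s : ℝ => Real.exp (-(1 / 2) * s ^ 2) * c := by fun_prop
  have h1 : ∀ R : ℝ, ∫ s in (0 : ℝ)..R, Real.exp (-(1 / 2) * s ^ 2) * c ≤
      1 - Real.exp (-P.t 0) := by
    intro R
    rw [intervalIntegral.integral_eq_sub_of_hasDerivAt (fun s _ => hd s)
      (hcont.intervalIntegrable 0 R)]
    have h2 : Real.exp (-P.t (-R)) ≤ 1 := by
      rw [Real.exp_le_one_iff]
      linarith [P.t_pos (-R)]
    simp only [neg_zero]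
    linarith
  have hint : IntegrableOn (fun s : ℝ => Real.exp (-(1 / 2) * s ^ 2) * c) (Ioi 0) :=
    ((integrable_exp_neg_mul_sq (b := 1 / 2) (by norm_num)).mul_const c).integrableOn
  have h2 := intervalIntegral_tendsto_integral_Ioi (0 : ℝ) hint tendsto_id
  have h3 : ∫ s in Ioi (0 : ℝ), Real.exp (-(1 / 2) * s ^ 2) * c = 1 / 2 := by
    rw [integral_mul_const, integral_gaussian_Ioi, hc]
    have h4 : Real.exp (-(Real.log (2 * Real.pi) / 2)) = (Real.sqrt (Real.pi / (1 / 2)))⁻¹ := by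
      rw [Real.exp_neg]
      congr 1
      have h5 : Real.pi / (1 / 2) = 2 * Real.pi := by ring
      rw [h5, Real.sqrt_eq_rpow, Real.rpow_def_of_pos (by positivity)]
      congr 1
      ring
    rw [h4]
    have h5 : Real.sqrt (Real.pi / (1 / 2)) ≠ 0 := by
      apply ne_of_gt
      apply Real.sqrt_pos.mpr
      have := Real.pi_pos
      positivity
    field_simp
  rw [h3] at h2
  have h4 := le_of_tendsto h2 (Eventually.of_forall fun R => h1 R)
  linarith

theorem two_L0_sq (P : F1) : 1 < 2 * P.L 0 ^ 2 := by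
  have h1 : P.L 0 = Real.exp (P.t 0 - Real.log (2 * Real.pi) / 2) := by
    rw [← Real.exp_log (P.L_pos 0), P.log_L]
    congr 1
    ring
  have h2 : P.L 0 ^ 2 = (Real.exp (-P.t 0))⁻¹ ^ 2 / (2 * Real.pi) := by
    have hpi : (0 : ℝ) < 2 * Real.pi := by have := Real.pi_pos; positivity
    rw [h1, ← Real.exp_neg, neg_neg, ← Real.exp_nat_mul, ← Real.exp_nat_mul]
    have e1 : ((2 : ℕ) : ℝ) * (P.t 0 - Real.log (2 * Real.pi) / 2) =
        ((2 : ℕ) : ℝ) * P.t 0 - Real.log (2 * Real.pi) := by push_cast; ring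
    rw [e1, Real.exp_sub, Real.exp_log hpi]
  have h3 := exp_neg_t0 P
  have h4 : 2 ≤ (Real.exp (-P.t 0))⁻¹ := by
    rw [le_inv_comm₀ (by norm_num) (Real.exp_pos _)]
    linarith
  have h5 : 4 ≤ (Real.exp (-P.t 0))⁻¹ ^ 2 := by nlinarith
  have hpi : (0 : ℝ) < 2 * Real.pi := by have := Real.pi_pos; positivity
  rw [h2, mul_div_assoc', lt_div_iff₀ hpi]
  have := Real.pi_lt_four
  linarith

/-- second order germ of `L` at `0` -/
theorem germ_L (P : F1) : ∃ f2 : ℝ, f2 ≠ 0 ∧ P.L' 0 ≠ 0 ∧ ∀ ε > 0, ∃ δ > 0, ∀ s, |s| ≤ δ →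
    |P.L s - P.L 0 - P.L' 0 * s - f2 * s ^ 2| ≤ ε * s ^ 2 := by
  set d : ℝ := P.L' 0 * (P.L 0 - 0) + P.L 0 * (P.L' 0 - 1) with hd
  have hL0 := P.L_pos 0
  have hd0 : 0 < d := by
    have h1 : d = P.L 0 * (2 * P.L 0 ^ 2 - 1) := by
      rw [hd, L'_eq]; ring
    rw [h1]
    exact mul_pos hL0 (by linarith [two_L0_sq P])
  refine ⟨d / 2, by positivity, (P.L'_pos 0).ne', fun ε hε => ?_⟩
  have h1 : HasDerivAt P.L' d 0 := hL' P 0
  rw [hasDerivAt_iff_isLittleO, Asymptotics.isLittleO_iff] at h1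
  have h2 := h1 hε
  rw [Metric.eventually_nhds_iff] at h2
  obtain ⟨δ, hδ, h3⟩ := h2
  refine ⟨δ / 2, by positivity, fun s hs => ?_⟩
  have hk : ∀ x, HasDerivAt (fun x => P.L x - P.L 0 - P.L' 0 * x - d / 2 * x ^ 2)
      (P.L' x - P.L' 0 - d * x) x := by
    intro x
    have e1 : HasDerivAt (fun x : ℝ => d / 2 * x ^ 2) (d * x) x := by
      have := (hasDerivAt_pow 2 x).const_mul (d / 2)
      refine this.congr_deriv ?_
      simp; ring
    have e2 : HasDerivAt (fun x : ℝ => P.L' 0 * x) (P.L' 0) x := by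
      simpa using (hasDerivAt_id x).const_mul (P.L' 0)
    exact (((P.hL x).sub_const _).sub e2).sub e1
  have hb : ∀ x ∈ Icc (-|s|) |s|, ‖P.L' x - P.L' 0 - d * x‖ ≤ ε * |s| := by
    intro x hx
    have hx' : |x| ≤ |s| := abs_le.mpr hx
    have h4 := h3 (y := x) (by
      rw [Real.dist_eq, sub_zero]
      linarith)
    simp only [sub_zero, smul_eq_mul] at h4
    rw [Real.norm_eq_abs] at h4 ⊢
    have h5 : P.L' x - P.L' 0 - x * d = P.L' x - P.L' 0 - d * x := by ring
    rw [h5, Real.norm_eq_abs] at h4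
    exact h4.trans (mul_le_mul_of_nonneg_left hx' hε.le)
  have h0 : (0 : ℝ) ∈ Icc (-|s|) |s| := ⟨by linarith [abs_nonneg s], abs_nonneg s⟩
  have hsm : s ∈ Icc (-|s|) |s| := ⟨neg_abs_le s, le_abs_self s⟩
  have h4 := (convex_Icc (-|s|) |s|).norm_image_sub_le_of_norm_hasDerivWithin_le
    (fun x _ => (hk x).hasDerivWithinAt) hb h0 hsm
  simp only [sub_zero, mul_zero, sub_self, ne_eq, OfNat.ofNat_ne_zero, not_false_eq_true, zero_pow,
    Real.norm_eq_abs] at h4
  calc |P.L s - P.L 0 - P.L' 0 * s - d / 2 * s ^ 2| ≤ ε * |s| * |s| := h4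
    _ = ε * s ^ 2 := by rw [mul_assoc, ← abs_mul, ← sq, abs_of_nonneg (sq_nonneg s)]

/-! ### `mf P.L` of the pencil -/

variable {n : ℕ}

theorem pen_symm {A : Fin n → Matrix (Fin n) (Fin n) ℝ} (hA : ∀ c, (A c)ᵀ = A c) (z : E n) :
    (pen A z)ᵀ = pen A z := by
  unfold pen
  rw [Matrix.transpose_sum]
  exact Finset.sum_congr rfl fun c _ => by rw [Matrix.transpose_smul, hA]

theorem isFc_mf (P : F1) {A : Fin n → Matrix (Fin n) (Fin n) ℝ} (hA : ∀ c, (A c)ᵀ = A c)
    (z : E n) : IsFc P.L (pen A z) (mf P.L (pen A z)) := by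
  obtain ⟨U, m, hD⟩ := exists_dec (pen_symm hA z)
  exact ⟨U, m, hD.orth', hD.eq, hD.mf_eq P.L⟩

theorem cont_mf_pen (P : F1) {A : Fin n → Matrix (Fin n) (Fin n) ℝ} (hA : ∀ c, (A c)ᵀ = A c)
    (i j : Fin n) : Continuous fun z : E n => mf P.L (pen A z) i j := by
  rw [continuous_iff_continuousAt]
  intro z
  -- spectral bound near `z`
  set B : ℝ := Real.sqrt (penK A) * (‖z‖ + 1) with hB
  have hB0 : 0 ≤ B := by positivity
  have hsp0 : ∀ (y : E n), ‖y‖ ≤ ‖z‖ + 1 → ∀ U m, Dec (pen A y) U m → ∀ i, m i ∈ Icc (-B) B := by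
    intro y hy U m hD i
    have h1 : ∑ i, ∑ j, pen A y i j ^ 2 = ∑ k, m k ^ 2 := by
      rw [hD.eq]; exact sum_sq_udu hD.orth' m
    have h2 := pen_sq_le A y
    have h3 : m i ^ 2 ≤ B ^ 2 := by
      calc m i ^ 2 ≤ ∑ k, m k ^ 2 :=
            Finset.single_le_sum (f := fun k => m k ^ 2) (fun a _ => sq_nonneg _)
              (Finset.mem_univ i)
        _ ≤ penK A * ‖y‖ ^ 2 := by rw [← h1]; exact h2
        _ ≤ penK A * (‖z‖ + 1) ^ 2 := mul_le_mul_of_nonneg_left
            (pow_le_pow_left₀ (norm_nonneg _) hy 2) (penK_nonneg A)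
        _ = B ^ 2 := by rw [hB, mul_pow, Real.sq_sqrt (penK_nonneg A)]
    exact abs_le.mp (abs_le_of_sq_le_sq h3 hB0)
  obtain ⟨U, m, hD⟩ := exists_dec (pen_symm hA z)
  have hsp : ∀ᶠ y in 𝓝 z, ∃ U m, Dec (pen A y) U m ∧ ∀ i, m i ∈ Icc (-B) B := by
    have h1 : ∀ᶠ y in 𝓝 z, ‖y‖ < ‖z‖ + 1 :=
      (isOpen_lt continuous_norm continuous_const).mem_nhds (by simp)
    filter_upwards [h1] with y hy
    obtain ⟨U, m, hD⟩ := exists_dec (pen_symm hA y)
    exact ⟨U, m, hD, hsp0 y hy.le U m hD⟩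
  have hfd : ∀ i j, HasFDerivAt (fun y : E n => pen A y i j)
      (fderiv ℝ (fun y : E n => pen A y i j) z) z := fun i j =>
    (((contDiff_pen A i j (m := 1)).differentiable (by norm_num)) z).hasFDerivAt
  exact (hasFD_mf (c := -B) (C := B) (by linarith) (F := P.L) (F' := P.L')
    (fun x _ => (P.hL x).hasDerivWithinAt) P.L'_cont.continuousOn hsp hD
    (hsp0 z (by linarith) U m hD) hfd i j).continuousAt

/-- the weak form against the Gaussian gives the Lebesgue form -/
theorem weakHess_of_gauss {M : E n → Matrix (Fin n) (Fin n) ℝ}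
    (hw : ∀ ψ : E n → ℝ, Test ψ → ∀ i j k,
      Ex Q (fun z => M z i j * (z k * ψ z - pd k ψ z)) =
        Ex Q (fun z => M z i k * (z j * ψ z - pd j ψ z))) : WeakHess M := by
  intro χ hχ i j k
  set ψ : E n → ℝ := fun z => χ z * Real.exp (Q z) with hψ
  have hQ : ContDiff ℝ (⊤ : ℕ∞) (fun z : E n => Real.exp (Q z)) := by
    unfold Q
    exact ((contDiff_norm_sq ℝ).div_const 2).exp
  have hψT : Test ψ := ⟨hχ.1.mul hQ, hχ.2.mul_right⟩
  have hpd : ∀ a z, z a * ψ z - pd a ψ z = -(pd a χ z) * Real.exp (Q z) := by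
    intro a z
    have h1 : HasFDerivAt χ (fderiv ℝ χ z) z := ((hχ.1.differentiable (by simp)) z).hasFDerivAt
    have h2 : HasFDerivAt (fun z : E n => ‖z‖ ^ 2 / 2) ((1 / 2 : ℝ) • (2 • (innerSL ℝ z))) z := by
      have h3 := (hasStrictFDerivAt_norm_sq z).hasFDerivAt
      have h4 := h3.const_mul (1 / 2 : ℝ)
      refine h4.congr_of_eventuallyEq (Eventually.of_forall fun y => ?_)
      simp only
      ring
    have h5 : HasFDerivAt (fun y : E n => χ y * Real.exp (‖y‖ ^ 2 / 2))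
        (χ z • Real.exp (‖z‖ ^ 2 / 2) • (1 / 2 : ℝ) • 2 • (innerSL ℝ) z +
          Real.exp (‖z‖ ^ 2 / 2) • fderiv ℝ χ z) z := h1.mul h2.exp
    have h6 : ψ = fun y : E n => χ y * Real.exp (‖y‖ ^ 2 / 2) := by
      funext y; rw [hψ]; rfl
    unfold pd
    rw [h6]
    rw [h5.fderiv]
    have h7 : inner ℝ z (ei a) = z a := by
      unfold ei
      rw [EuclideanSpace.inner_single_right]
      simp
    simp only [ContinuousLinearMap.add_apply, ContinuousLinearMap.smul_apply, smul_eq_mul,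
      innerSL_apply_apply, h7, nsmul_eq_mul]
    unfold Q
    push_cast
    ring
  have key : ∀ a b, Ex Q (fun z => M z i a * (z b * ψ z - pd b ψ z)) =
      -(∫ z, M z i a * pd b χ z) / ∫ z, Real.exp (-Q (n := n) z) := by
    intro a b
    unfold Ex
    congr 1
    rw [← integral_neg]
    refine integral_congr_ae (Eventually.of_forall fun z => ?_)
    simp only
    rw [hpd]
    have : Real.exp (Q z) * Real.exp (-Q z) = 1 := by rw [← Real.exp_add]; simp
    calc M z i a * (-pd b χ z * Real.exp (Q z)) * Real.exp (-Q z)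
        = -(M z i a * pd b χ z) * (Real.exp (Q z) * Real.exp (-Q z)) := by ring
      _ = _ := by rw [this, mul_one]
  have h1 := hw ψ hψT i j k
  rw [key, key] at h1
  have hZ : (∫ z, Real.exp (-Q (n := n) z)) ≠ 0 := by
    apply ne_of_gt
    have hI : Integrable fun z : E n => Real.exp (-Q z) := by
      have := GaussianFourier.integrable_cexp_neg_mul_sq_norm_add (V := E n) (b := (1 / 2 : ℂ))
        (by norm_num) 0 0
      have h2 := this.re
      refine h2.congr (Eventually.of_forall fun z => ?_)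
      simp only [zero_mul, add_zero]
      unfold Q
      have h3 : (-(1 / 2 : ℂ) * (‖z‖ : ℂ) ^ 2) = ((-(‖z‖ ^ 2 / 2) : ℝ) : ℂ) := by
        push_cast; ring
      rw [h3, ← Complex.ofReal_exp]
      exact Complex.ofReal_re _
    exact integral_exp_pos hI
  rw [div_left_inj' hZ] at h1
  linarith

/-- **(EQ34)** steps (3) + (4) for `M0 z = L(∑ z_c A_c)` -/
theorem eq34 (P : F1) (A : Fin n → Matrix (Fin n) (Fin n) ℝ) (hA : ∀ c, (A c)ᵀ = A c)
    (h1 : ∑ c, A c * A c = 1)
    (hw : WeakHess fun z => mf P.L (∑ c, z c • A c)) :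
    ∃ O : Matrix (Fin n) (Fin n) ℝ, O * Oᵀ = 1 ∧
      (∀ c a b, A c a b = ∑ i, O i c * O i a * O i b) ∧
      ∀ z : E n, mf P.L (∑ c, z c • A c) =
        Oᵀ * Matrix.diagonal (fun i => P.L ((O *ᵥ z.ofLp) i)) * O := by
  obtain ⟨f2, hf2, hf1, hf⟩ := germ_L P
  have hw' : WeakHess fun z => mf P.L (pen A z) := hw
  obtain ⟨ht, hc⟩ := symm_of_weak A (fun a => hA a) hf1 hf2 hf (fun x => isFc_mf P hA x)
    (fun i j => (cont_mf_pen P hA i j).measurable) hw'
  obtain ⟨U, e, hU, he, hAe⟩ := frame_of_symm A (fun a => hA a) ht hc h1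
  have he2 : ∀ i, e i * e i = 1 := fun i => by
    rcases he i with h | h <;> rw [h] <;> norm_num
  set O : Matrix (Fin n) (Fin n) ℝ := Matrix.of fun i a => e i * U i a with hO
  have hOO : O * Oᵀ = 1 := by
    ext i j
    rw [Matrix.mul_apply, Matrix.one_apply]
    have h2 : ∀ a, O i a * Oᵀ a j = e i * e j * (U i a * U j a) := by
      intro a
      simp only [hO, Matrix.transpose_apply, Matrix.of_apply]
      ring
    simp_rw [h2]
    rw [← Finset.mul_sum, orth_rows hU]
    by_cases h : i = j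
    · subst h; simp [he2]
    · simp [h]
  have hAO : ∀ c a b, A c a b = ∑ i, O i c * O i a * O i b := by
    intro c a b
    rw [hAe]
    refine Finset.sum_congr rfl fun i _ => ?_
    simp only [hO, Matrix.of_apply]
    have : e i * U i c * (e i * U i a) * (e i * U i b) =
        (e i * e i) * (e i * U i c * U i a * U i b) := by ring
    rw [this, he2, one_mul]
  refine ⟨O, hOO, hAO, fun z => ?_⟩
  have hdec : Dec (∑ c, z c • A c) Oᵀ (fun i => (O *ᵥ z.ofLp) i) := by
    refine ⟨by rw [Matrix.transpose_transpose]; exact hOO, ?_⟩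
    rw [Matrix.transpose_transpose]
    have h2 := pencil_eq (L := A) (U := O) (e := fun _ => 1) (fun a b c => by
      rw [hAO]
      exact Finset.sum_congr rfl fun i _ => by ring) z.ofLp
    simp only [one_mul] at h2
    exact h2
  rw [hdec.mf_eq, Matrix.transpose_transpose]

end Vale.Agent.P254.SP.H372
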