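import Vale.Agent.P254.SP.H372.EqAlg
import Vale.Agent.P254.S.Iface

/-!
P254/P248, equality case on the (SP) line, step (3) (helper372).

`symm_of_weak` : if `M x = f (∑ x_a L_a)` (any spectral decomposition), `f s = f0 + f1 s + f2 s² +
o(s²)` with `f1 ≠ 0`, `f2 ≠ 0`, and `M` is weakly a Hessian (`∫ M_ij ∂_k χ = ∫ M_ik ∂_j χ`), then
`L` is totally symmetric and the `L_a` commute.
-/

open MeasureTheory Set Filter Topology Matrix

namespace Vale.Agent.P254.SP.H372

open Vale.Agent.P227.M Vale.Agent.P254.S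

variable {n : ℕ}

/-- `N = f (A)` : for some spectral decomposition of `A` -/
def IsFc (f : ℝ → ℝ) (A N : Matrix (Fin n) (Fin n) ℝ) : Prop :=
  ∃ (U : Matrix (Fin n) (Fin n) ℝ) (m : Fin n → ℝ), U * Uᵀ = 1 ∧
    A = U * Matrix.diagonal m * Uᵀ ∧ N = U * Matrix.diagonal (fun i => f (m i)) * Uᵀ

/-- weak symmetry of the derivative: `M` is weakly a Hessian -/
def WeakHess (M : E n → Matrix (Fin n) (Fin n) ℝ) : Prop :=
  ∀ χ : E n → ℝ, Test χ → ∀ i j k, ∫ x, M x i j * pd k χ x = ∫ x, M x i k * pd j χ x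

theorem udu_apply (U : Matrix (Fin n) (Fin n) ℝ) (m : Fin n → ℝ) (i j : Fin n) :
    (U * Matrix.diagonal m * Uᵀ) i j = ∑ k, U i k * m k * U j k := by
  rw [Matrix.mul_apply]
  exact Finset.sum_congr rfl fun k _ => by
    rw [Matrix.mul_diagonal, Matrix.transpose_apply]

theorem orth_sq_le {U : Matrix (Fin n) (Fin n) ℝ} (hU : U * Uᵀ = 1) (i k : Fin n) :
    U i k ^ 2 ≤ 1 := by
  have h := orth_rows hU i i
  rw [if_pos rfl] at h
  calc U i k ^ 2 = U i k * U i k := by ring
    _ ≤ ∑ a, U i a * U i a :=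
        Finset.single_le_sum (f := fun a => U i a * U i a) (fun a _ => mul_self_nonneg _)
          (Finset.mem_univ k)
    _ = 1 := h

theorem sum_sq_udu {U : Matrix (Fin n) (Fin n) ℝ} (hU : U * Uᵀ = 1) (m : Fin n → ℝ) :
    ∑ i, ∑ j, (U * Matrix.diagonal m * Uᵀ) i j ^ 2 = ∑ k, m k ^ 2 := by
  have hU' : Uᵀ * U = 1 := mul_eq_one_comm.mp hU
  set A := U * Matrix.diagonal m * Uᵀ with hA
  have hAT : Aᵀ = A := by
    rw [hA, Matrix.transpose_mul, Matrix.transpose_mul, Matrix.transpose_transpose,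
      Matrix.diagonal_transpose, Matrix.mul_assoc]
  have h1 : ∑ i, ∑ j, A i j ^ 2 = (A * A).trace := by
    rw [Matrix.trace]
    refine Finset.sum_congr rfl fun i _ => ?_
    rw [Matrix.diag_apply, Matrix.mul_apply]
    refine Finset.sum_congr rfl fun j _ => ?_
    have : A j i = A i j := by
      conv_lhs => rw [← hAT, Matrix.transpose_apply]
    rw [this]; ring
  rw [h1]
  have h2 : A * A = U * Matrix.diagonal (fun k => m k ^ 2) * Uᵀ := by
    calc A * A = U * Matrix.diagonal m * (Uᵀ * U) * Matrix.diagonal m * Uᵀ := by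
          rw [hA]; simp only [Matrix.mul_assoc]
      _ = U * (Matrix.diagonal m * Matrix.diagonal m) * Uᵀ := by
          rw [hU', Matrix.mul_one]; simp only [Matrix.mul_assoc]
      _ = _ := by
          rw [Matrix.diagonal_mul_diagonal]
          congr 3
          funext k
          ring
  rw [h2, Matrix.mul_assoc, Matrix.trace_mul_comm, Matrix.mul_assoc, hU', Matrix.mul_one,
    Matrix.trace_diagonal]

/-- second order germ of the functional calculus -/
theorem germ {f : ℝ → ℝ} {f0 f1 f2 ε δ : ℝ}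
    (hf : ∀ s, |s| ≤ δ → |f s - f0 - f1 * s - f2 * s ^ 2| ≤ ε * s ^ 2)
    {A N : Matrix (Fin n) (Fin n) ℝ} (h : IsFc f A N) (hε : 0 ≤ ε) (hδ : 0 ≤ δ)
    (hA : ∑ i, ∑ j, A i j ^ 2 ≤ δ ^ 2) (i j : Fin n) :
    |N i j - f0 * (1 : Matrix (Fin n) (Fin n) ℝ) i j - f1 * A i j - f2 * (A * A) i j| ≤
      ε * ∑ i, ∑ j, A i j ^ 2 := by
  obtain ⟨U, m, hU, hAe, hN⟩ := h
  have hU' : Uᵀ * U = 1 := mul_eq_one_comm.mp hU
  have hsum : ∑ i, ∑ j, A i j ^ 2 = ∑ k, m k ^ 2 := by rw [hAe]; exact sum_sq_udu hU m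
  have hm : ∀ k, |m k| ≤ δ := by
    intro k
    have : m k ^ 2 ≤ δ ^ 2 := by
      calc m k ^ 2 ≤ ∑ k, m k ^ 2 :=
            Finset.single_le_sum (f := fun k => m k ^ 2) (fun a _ => sq_nonneg _)
              (Finset.mem_univ k)
        _ ≤ δ ^ 2 := by rw [← hsum]; exact hA
    exact abs_le_of_sq_le_sq this hδ
  have hAA : A * A = U * Matrix.diagonal (fun k => m k ^ 2) * Uᵀ := by
    calc A * A = U * Matrix.diagonal m * (Uᵀ * U) * Matrix.diagonal m * Uᵀ := by
          rw [hAe]; simp only [Matrix.mul_assoc]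
      _ = U * (Matrix.diagonal m * Matrix.diagonal m) * Uᵀ := by
          rw [hU', Matrix.mul_one]; simp only [Matrix.mul_assoc]
      _ = _ := by
          rw [Matrix.diagonal_mul_diagonal]
          congr 3
          funext k
          ring
  have h1 : (1 : Matrix (Fin n) (Fin n) ℝ) i j = ∑ k, U i k * 1 * U j k := by
    rw [← hU, Matrix.mul_apply]
    exact Finset.sum_congr rfl fun k _ => by rw [Matrix.transpose_apply]; ring
  have hrep : N i j - f0 * (1 : Matrix (Fin n) (Fin n) ℝ) i j - f1 * A i j - f2 * (A * A) i j =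
      ∑ k, U i k * (f (m k) - f0 - f1 * m k - f2 * m k ^ 2) * U j k := by
    rw [hAA, hN, udu_apply, udu_apply, h1]
    conv_lhs => rw [hAe, udu_apply]
    rw [Finset.mul_sum, Finset.mul_sum, Finset.mul_sum, ← Finset.sum_sub_distrib,
      ← Finset.sum_sub_distrib, ← Finset.sum_sub_distrib]
    exact Finset.sum_congr rfl fun k _ => by ring
  rw [hrep, hsum, Finset.mul_sum]
  refine (Finset.abs_sum_le_sum_abs _ _).trans (Finset.sum_le_sum fun k _ => ?_)
  rw [abs_mul, abs_mul]
  have h2 : |U i k| ≤ 1 := by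
    have := orth_sq_le hU i k
    rw [← one_pow 2] at this
    exact abs_le_of_sq_le_sq this zero_le_one
  have h3 : |U j k| ≤ 1 := by
    have := orth_sq_le hU j k
    rw [← one_pow 2] at this
    exact abs_le_of_sq_le_sq this zero_le_one
  have h4 := hf (m k) (hm k)
  have h5 : 0 ≤ ε * m k ^ 2 := mul_nonneg hε (sq_nonneg _)
  calc |U i k| * |f (m k) - f0 - f1 * m k - f2 * m k ^ 2| * |U j k|
      ≤ 1 * (ε * m k ^ 2) * 1 := by
        apply mul_le_mul (mul_le_mul h2 h4 (abs_nonneg _) zero_le_one) h3 (abs_nonneg _)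
        rw [one_mul]; exact h5
    _ = ε * m k ^ 2 := by ring

/-- comparison of orders -/
theorem order_cmp {A B C : ℝ} (h : ∀ ε > 0, ∃ s0 > 0, ∀ s, 0 < s → s < s0 →
    |A * s + B * s ^ 2| ≤ ε * C * s ^ 2) : A = 0 ∧ B = 0 := by
  have hA : A = 0 := by
    by_contra hA
    obtain ⟨s0, hs0, h1⟩ := h 1 one_pos
    have hpos : 0 < |A| := abs_pos.mpr hA
    set s := min (s0 / 2) (|A| / (2 * (|B| + |C| + 1))) with hs
    have hD : 0 < 2 * (|B| + |C| + 1) := by positivity
    have hs_pos : 0 < s := lt_min (by linarith) (by positivity)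
    have h2 := h1 s hs_pos (lt_of_le_of_lt (min_le_left _ _) (by linarith))
    have h3 : |A| * s ≤ |A * s + B * s ^ 2| + |B| * s ^ 2 := by
      have : A * s = (A * s + B * s ^ 2) - B * s ^ 2 := by ring
      calc |A| * s = |A * s| := by rw [abs_mul, abs_of_pos hs_pos]
        _ = |(A * s + B * s ^ 2) - B * s ^ 2| := by rw [← this]
        _ ≤ |A * s + B * s ^ 2| + |B * s ^ 2| := abs_sub _ _
        _ = _ := by rw [abs_mul B, abs_of_nonneg (sq_nonneg s)]
    have h4 : |A| * s ≤ (|C| + |B|) * s ^ 2 := by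
      have : 1 * C * s ^ 2 ≤ |C| * s ^ 2 := by
        rw [one_mul]
        exact mul_le_mul_of_nonneg_right (le_abs_self _) (sq_nonneg _)
      nlinarith
    have h5 : |A| ≤ (|C| + |B|) * s := by
      have : |A| * s ≤ ((|C| + |B|) * s) * s := by nlinarith
      exact le_of_mul_le_mul_right this hs_pos
    have h6 : s ≤ |A| / (2 * (|B| + |C| + 1)) := min_le_right _ _
    have h7 : (|C| + |B|) * s ≤ (|C| + |B|) * (|A| / (2 * (|B| + |C| + 1))) :=
      mul_le_mul_of_nonneg_left h6 (by positivity)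
    have h8 : (|C| + |B|) * (|A| / (2 * (|B| + |C| + 1))) ≤ |A| / 2 := by
      rw [mul_div_assoc', div_le_div_iff₀ hD (by norm_num)]
      nlinarith [abs_nonneg B, abs_nonneg C, abs_nonneg A, mul_nonneg (abs_nonneg A) (abs_nonneg B)]
    linarith
  subst hA
  refine ⟨rfl, ?_⟩
  by_contra hB
  have hpos : 0 < |B| := abs_pos.mpr hB
  obtain ⟨s0, hs0, h1⟩ := h (|B| / (2 * (|C| + 1))) (by positivity)
  have h2 := h1 (s0 / 2) (by linarith) (by linarith)
  rw [zero_mul, zero_add, abs_mul, abs_of_nonneg (sq_nonneg (s0 / 2))] at h2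
  have h3 : |B| ≤ |B| / (2 * (|C| + 1)) * C := le_of_mul_le_mul_right h2 (by positivity)
  have h4 : |B| / (2 * (|C| + 1)) * C ≤ |B| / (2 * (|C| + 1)) * |C| :=
    mul_le_mul_of_nonneg_left (le_abs_self _) (by positivity)
  have h5 : |B| / (2 * (|C| + 1)) * |C| ≤ |B| / 2 := by
    rw [div_mul_eq_mul_div, div_le_div_iff₀ (by positivity) (by norm_num)]
    nlinarith [abs_nonneg C]
  linarith

/-! ### integration by parts with test functions -/

theorem pd_test {χ : E n → ℝ} (h : Test χ) (k : Fin n) : Test (pd k χ) := by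
  refine ⟨?_, ?_⟩
  · unfold pd
    exact (h.1.fderiv_right (m := (⊤ : ℕ∞)) (by norm_cast)).clm_apply contDiff_const
  · unfold pd
    exact (h.2.fderiv (𝕜 := ℝ)).comp_left (g := fun L : E n →L[ℝ] ℝ => L (ei k)) (by simp)

theorem test_cont {χ : E n → ℝ} (h : Test χ) : Continuous χ := h.1.continuous

/-- `∫ g ∂_k χ = - ∫ ∂_k g χ`, `g` of class `C¹` -/
theorem ibp {g χ : E n → ℝ} (hg : ContDiff ℝ 1 g) (hχ : Test χ) (k : Fin n) :
    ∫ x, g x * pd k χ x = - ∫ x, pd k g x * χ x := by
  have hgc : Continuous g := hg.continuous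
  have hg'c : Continuous (fun x => fderiv ℝ g x (ei k)) :=
    (hg.continuous_fderiv (by norm_num)).clm_apply continuous_const
  have hχ' := pd_test hχ k
  unfold pd
  refine integral_mul_fderiv_eq_neg_fderiv_mul_of_integrable ?_ ?_ ?_ ?_ ?_
  · exact (hg'c.mul (test_cont hχ)).integrable_of_hasCompactSupport hχ.2.mul_left
  · exact (hgc.mul (test_cont hχ')).integrable_of_hasCompactSupport hχ'.2.mul_left
  · exact (hgc.mul (test_cont hχ)).integrable_of_hasCompactSupport hχ.2.mul_left
  · intro x _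
    exact (hg.differentiable (by norm_num)).differentiableAt
  · intro x _
    exact (hχ.1.differentiable (by simp)).differentiableAt

/-- a Hessian is weakly a Hessian -/
theorem weakHess_hess {φ : E n → ℝ} (hφ : ContDiff ℝ 2 φ) : WeakHess (hess φ) := by
  intro χ hχ i j k
  have hpd : ∀ a, ContDiff ℝ 1 (pd a φ) := fun a => by
    unfold pd
    exact (hφ.fderiv_right (m := 1) (by norm_num)).clm_apply contDiff_const
  -- symmetry of second derivatives
  have hsym : ∀ a b x, pd a (pd b φ) x = pd b (pd a φ) x := by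
    intro a b x
    have h1 : ∀ c d, pd c (pd d φ) x = (fderiv ℝ (fderiv ℝ φ) x (ei c)) (ei d) := by
      intro c d
      unfold pd
      have hd : DifferentiableAt ℝ (fderiv ℝ φ) x :=
        ((hφ.fderiv_right (m := 1) (by norm_num)).differentiable (by norm_num)).differentiableAt
      rw [fderiv_clm_apply hd (differentiableAt_const _)]
      simp
    rw [h1, h1]
    have h2 : IsSymmSndFDerivAt ℝ φ x :=
      (hφ.contDiffAt).isSymmSndFDerivAt (by simp)
    exact h2 _ _
  have hsymχ : ∀ a b x, pd a (pd b χ) x = pd b (pd a χ) x := by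
    intro a b x
    have hχ2 : ContDiff ℝ 2 χ := hχ.1.of_le (by norm_cast)
    have h1 : ∀ c d, pd c (pd d χ) x = (fderiv ℝ (fderiv ℝ χ) x (ei c)) (ei d) := by
      intro c d
      unfold pd
      have hd : DifferentiableAt ℝ (fderiv ℝ χ) x :=
        ((hχ2.fderiv_right (m := 1) (by norm_num)).differentiable (by norm_num)).differentiableAt
      rw [fderiv_clm_apply hd (differentiableAt_const _)]
      simp
    rw [h1, h1]
    have h2 : IsSymmSndFDerivAt ℝ χ x :=
      (hχ2.contDiffAt).isSymmSndFDerivAt (by simp)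
    exact h2 _ _
  have e1 : ∫ x, hess φ x i j * pd k χ x = - ∫ x, pd i φ x * pd j (pd k χ) x := by
    have h1 := ibp (hpd i) (pd_test hχ k) j
    have h2 : ∀ x, hess φ x i j * pd k χ x = pd j (pd i φ) x * pd k χ x := fun x => by
      unfold hess; rw [hsym i j x]
    simp_rw [h2]
    linarith
  have e2 : ∫ x, hess φ x i k * pd j χ x = - ∫ x, pd i φ x * pd k (pd j χ) x := by
    have h1 := ibp (hpd i) (pd_test hχ j) k
    have h2 : ∀ x, hess φ x i k * pd j χ x = pd k (pd i φ) x * pd j χ x := fun x => by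
      unfold hess; rw [hsym i k x]
    simp_rw [h2]
    linarith
  rw [e1, e2]
  simp_rw [hsymχ j k]

/-! ### the pencil -/

/-- `H x = ∑ x_a L_a` -/
noncomputable def pen (L : Fin n → Matrix (Fin n) (Fin n) ℝ) (x : E n) :
    Matrix (Fin n) (Fin n) ℝ := ∑ a, x a • L a

theorem pen_apply (L : Fin n → Matrix (Fin n) (Fin n) ℝ) (x : E n) (i j : Fin n) :
    pen L x i j = ∑ a, x a * L a i j := by
  unfold pen
  rw [Matrix.sum_apply]
  rfl

theorem pen_smul (L : Fin n → Matrix (Fin n) (Fin n) ℝ) (s : ℝ) (x : E n) :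
    pen L (s • x) = s • pen L x := by
  unfold pen
  rw [Finset.smul_sum]
  refine Finset.sum_congr rfl fun a _ => ?_
  rw [smul_smul]
  rfl

theorem pen_ei (L : Fin n → Matrix (Fin n) (Fin n) ℝ) (l : Fin n) : pen L (ei l) = L l := by
  classical
  ext i j
  rw [pen_apply, Finset.sum_eq_single l]
  · simp [ei]
  · intro b _ hb
    simp [ei, hb]
  · simp

/-- `K` with `∑ (H x)_ij² ≤ K ‖x‖²` -/
noncomputable def penK (L : Fin n → Matrix (Fin n) (Fin n) ℝ) : ℝ :=
  ∑ i, ∑ j, (∑ a, |L a i j|) ^ 2

theorem penK_nonneg (L : Fin n → Matrix (Fin n) (Fin n) ℝ) : 0 ≤ penK L :=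
  Finset.sum_nonneg fun _ _ => Finset.sum_nonneg fun _ _ => sq_nonneg _

theorem abs_coord_le (x : E n) (a : Fin n) : |x a| ≤ ‖x‖ := by
  have := EuclideanSpace.norm_eq x
  rw [this]
  apply Real.le_sqrt_of_sq_le
  have h1 : |x a| ^ 2 = ‖x a‖ ^ 2 := by rw [Real.norm_eq_abs]
  rw [h1]
  exact Finset.single_le_sum (f := fun i => ‖x i‖ ^ 2) (fun i _ => sq_nonneg _)
    (Finset.mem_univ a)

theorem pen_sq_le (L : Fin n → Matrix (Fin n) (Fin n) ℝ) (x : E n) :
    ∑ i, ∑ j, pen L x i j ^ 2 ≤ penK L * ‖x‖ ^ 2 := by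
  unfold penK
  rw [Finset.sum_mul]
  refine Finset.sum_le_sum fun i _ => ?_
  rw [Finset.sum_mul]
  refine Finset.sum_le_sum fun j _ => ?_
  have h1 : |pen L x i j| ≤ (∑ a, |L a i j|) * ‖x‖ := by
    rw [pen_apply, Finset.sum_mul]
    refine (Finset.abs_sum_le_sum_abs _ _).trans (Finset.sum_le_sum fun a _ => ?_)
    rw [abs_mul, mul_comm]
    exact mul_le_mul_of_nonneg_left (abs_coord_le x a) (abs_nonneg _)
  calc pen L x i j ^ 2 = |pen L x i j| ^ 2 := (sq_abs _).symm
    _ ≤ ((∑ a, |L a i j|) * ‖x‖) ^ 2 := pow_le_pow_left₀ (abs_nonneg _) h1 2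
    _ = _ := by ring

theorem contDiff_pen (L : Fin n → Matrix (Fin n) (Fin n) ℝ) (i j : Fin n) {m : WithTop ℕ∞} :
    ContDiff ℝ m (fun x => pen L x i j) := by
  simp_rw [pen_apply]
  refine ContDiff.sum fun a _ => ContDiff.mul ?_ contDiff_const
  exact (EuclideanSpace.proj (𝕜 := ℝ) a).contDiff

theorem pd_pen (L : Fin n → Matrix (Fin n) (Fin n) ℝ) (i j k : Fin n) (x : E n) :
    pd k (fun x => pen L x i j) x = L k i j := by
  have hlin : (fun x => pen L x i j) = ((∑ a, (L a i j) • (EuclideanSpace.proj (𝕜 := ℝ) a) :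
      E n →L[ℝ] ℝ) : E n → ℝ) := by
    funext y
    rw [pen_apply, ContinuousLinearMap.sum_apply]
    exact Finset.sum_congr rfl fun a _ => by simp [mul_comm]
  unfold pd
  rw [hlin, ContinuousLinearMap.fderiv, ← hlin]
  show pen L (ei k) i j = _
  rw [pen_ei]

theorem contDiff_pen_sq (L : Fin n → Matrix (Fin n) (Fin n) ℝ) (i j : Fin n) {m : WithTop ℕ∞} :
    ContDiff ℝ m (fun x => (pen L x * pen L x) i j) := by
  simp_rw [Matrix.mul_apply]
  exact ContDiff.sum fun a _ => (contDiff_pen L i a).mul (contDiff_pen L a j)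

theorem pd_pen_sq (L : Fin n → Matrix (Fin n) (Fin n) ℝ) (i j k : Fin n) (x : E n) :
    pd k (fun x => (pen L x * pen L x) i j) x = (L k * pen L x + pen L x * L k) i j := by
  have hd : ∀ a b, HasFDerivAt (fun x => pen L x a b) (fderiv ℝ (fun x => pen L x a b) x) x :=
    fun a b => (((contDiff_pen L a b (m := 1)).differentiable (by norm_num)) x).hasFDerivAt
  have h1 : HasFDerivAt (fun x => (pen L x * pen L x) i j)
      (∑ c, (pen L x i c • fderiv ℝ (fun x => pen L x c j) x +
        pen L x c j • fderiv ℝ (fun x => pen L x i c) x)) x := by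
    simp_rw [Matrix.mul_apply]
    exact HasFDerivAt.fun_sum fun c _ => (hd i c).mul (hd c j)
  have h2 : ∀ a b, fderiv ℝ (fun x => pen L x a b) x (ei k) = L k a b := fun a b =>
    pd_pen L a b k x
  unfold pd
  rw [h1.fderiv, ContinuousLinearMap.sum_apply, Matrix.add_apply, Matrix.mul_apply,
    Matrix.mul_apply, ← Finset.sum_add_distrib]
  refine Finset.sum_congr rfl fun c _ => ?_
  rw [ContinuousLinearMap.add_apply, ContinuousLinearMap.smul_apply,
    ContinuousLinearMap.smul_apply, h2, h2, smul_eq_mul, smul_eq_mul]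
  ring

/-- a continuous function orthogonal to all test functions vanishes -/
theorem eq_zero_of_test {g : E n → ℝ} (hg : Continuous g)
    (h : ∀ χ : E n → ℝ, Test χ → ∫ x, g x * χ x = 0) (x : E n) : g x = 0 := by
  have h1 : ∀ᵐ x ∂(volume : Measure (E n)), g x = 0 := by
    apply ae_eq_zero_of_integral_contDiff_smul_eq_zero hg.locallyIntegrable
    intro χ hχ hχc
    have := h χ ⟨hχ, hχc⟩
    simp_rw [smul_eq_mul, mul_comm]
    exact this
  have h2 : g = fun _ => 0 := (Continuous.ae_eq_iff_eq volume hg continuous_const).mp h1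
  rw [h2]

/-! ### scaling -/

theorem scale {M : E n → Matrix (Fin n) (Fin n) ℝ} (hw : WeakHess M) {s : ℝ} (hs : 0 < s) :
    WeakHess (fun y => M (s • y)) := by
  intro χ hχ i j k
  set ξ : E n → ℝ := fun x => χ (s⁻¹ • x) with hξ
  have hξT : Test ξ := by
    refine ⟨hχ.1.comp (contDiff_const_smul s⁻¹), ?_⟩
    exact hχ.2.comp_homeomorph (Homeomorph.smulOfNeZero s⁻¹ (inv_ne_zero hs.ne'))
  have hpd : ∀ a y, pd a ξ (s • y) = s⁻¹ * pd a χ y := by
    intro a y
    unfold pd
    have h1 : HasFDerivAt ξ ((fderiv ℝ χ (s⁻¹ • (s • y))).comp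
        (s⁻¹ • ContinuousLinearMap.id ℝ (E n))) (s • y) := by
      have h2 : HasFDerivAt χ (fderiv ℝ χ (s⁻¹ • (s • y))) (s⁻¹ • (s • y)) :=
        ((hχ.1.differentiable (by simp)) _).hasFDerivAt
      exact h2.comp (s • y) ((hasFDerivAt_id (s • y)).const_smul s⁻¹)
    rw [h1.fderiv]
    simp [smul_smul, inv_mul_cancel₀ hs.ne']
  have key : ∀ a b, ∫ y, M (s • y) i a * pd b χ y =
      s * (|(s ^ Module.finrank ℝ (E n))⁻¹| * ∫ x, M x i a * pd b ξ x) := by
    intro a b
    have h1 := Measure.integral_comp_smul (volume : Measure (E n))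
      (fun x => M x i a * pd b ξ x) s
    rw [smul_eq_mul] at h1
    rw [← h1, ← integral_const_mul]
    refine integral_congr_ae (Eventually.of_forall fun y => ?_)
    simp only
    rw [hpd]
    field_simp
  show ∫ y, M (s • y) i j * pd k χ y = ∫ y, M (s • y) i k * pd j χ y
  rw [key j k, key k j, hw ξ hξT i j k]

/-- **(EQ3)** -/
theorem symm_of_weak (L : Fin n → Matrix (Fin n) (Fin n) ℝ) (hs : ∀ a, (L a).IsSymm)
    {f : ℝ → ℝ} {f0 f1 f2 : ℝ} (hf1 : f1 ≠ 0) (hf2 : f2 ≠ 0)
    (hf : ∀ ε > 0, ∃ δ > 0, ∀ s, |s| ≤ δ → |f s - f0 - f1 * s - f2 * s ^ 2| ≤ ε * s ^ 2)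
    {M : E n → Matrix (Fin n) (Fin n) ℝ} (hM : ∀ x, IsFc f (pen L x) (M x))
    (hMm : ∀ i j, Measurable fun x => M x i j) (hw : WeakHess M) :
    (∀ a b c, L a b c = L b a c) ∧ ∀ a b, L a * L b = L b * L a := by
  classical
  -- comparison for one test function
  have main : ∀ χ : E n → ℝ, Test χ → ∀ i j k,
      (f1 * ((∫ y, pen L y i j * pd k χ y) - ∫ y, pen L y i k * pd j χ y) = 0) ∧
      (f2 * ((∫ y, (pen L y * pen L y) i j * pd k χ y) -
        ∫ y, (pen L y * pen L y) i k * pd j χ y) = 0) := by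
    intro χ hχ i j k
    obtain ⟨R, hR0, hR⟩ : ∃ R : ℝ, 0 < R ∧ ∀ y, ‖y‖ > R → χ y = 0 := by
      obtain ⟨R, hR⟩ := hχ.2.isCompact.isBounded.subset_closedBall 0
      refine ⟨max R 1, by positivity, fun y hy => ?_⟩
      by_contra h
      have h1 : y ∈ tsupport χ := subset_tsupport _ h
      have h2 := hR h1
      rw [mem_closedBall_zero_iff] at h2
      linarith [le_max_left R 1]
    have hRpd : ∀ a y, ‖y‖ > R → pd a χ y = 0 := by
      intro a y hy
      unfold pd
      have h1 : χ =ᶠ[𝓝 y] fun _ => 0 := by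
        filter_upwards [(isOpen_lt continuous_const continuous_norm).mem_nhds hy] with z hz
        exact hR z hz
      rw [h1.fderiv_eq]
      simp
    -- the constant
    set C : ℝ := penK L * R ^ 2 * ((∫ y, |pd k χ y|) + ∫ y, |pd j χ y|) with hC
    apply order_cmp (C := C)
    intro ε hε
    obtain ⟨δ, hδ, hfδ⟩ := hf ε hε
    have hK := penK_nonneg L
    refine ⟨δ / ((penK L + 1) * (R + 1)), by positivity, fun s hs0 hs1 => ?_⟩
    have hsR : ∀ y : E n, ‖y‖ ≤ R → ∑ i, ∑ j, pen L (s • y) i j ^ 2 ≤ δ ^ 2 := by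
      intro y hy
      refine (pen_sq_le L _).trans ?_
      rw [norm_smul, Real.norm_eq_abs, abs_of_pos hs0]
      have h1 : s * ((penK L + 1) * (R + 1)) ≤ δ := by
        rw [lt_div_iff₀ (by positivity)] at hs1
        exact hs1.le
      have h2 : (s * ‖y‖) ≤ s * R := mul_le_mul_of_nonneg_left hy hs0.le
      have h3 : penK L * (s * ‖y‖) ^ 2 ≤ (s * ((penK L + 1) * (R + 1))) ^ 2 := by
        have h4 : (s * ‖y‖) ^ 2 ≤ (s * R) ^ 2 := pow_le_pow_left₀ (by positivity) h2 2
        have h5 : penK L ≤ (penK L + 1) ^ 2 := by nlinarith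
        have h6 : (s * R) ^ 2 ≤ (s * (R + 1)) ^ 2 :=
          pow_le_pow_left₀ (by positivity) (mul_le_mul_of_nonneg_left (by linarith) hs0.le) 2
        calc penK L * (s * ‖y‖) ^ 2 ≤ (penK L + 1) ^ 2 * (s * (R + 1)) ^ 2 :=
              mul_le_mul h5 (h4.trans h6) (by positivity) (by positivity)
          _ = _ := by ring
      exact h3.trans (pow_le_pow_left₀ (by positivity) h1 2)
    -- pointwise estimate
    have hpt : ∀ a b (y : E n), |M (s • y) i a * pd b χ y -
        (f0 * (1 : Matrix (Fin n) (Fin n) ℝ) i a * pd b χ y +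
          s * (f1 * (pen L y i a * pd b χ y)) +
          s ^ 2 * (f2 * ((pen L y * pen L y) i a * pd b χ y)))| ≤
        ε * (penK L * R ^ 2) * s ^ 2 * |pd b χ y| := by
      intro a b y
      by_cases hy : ‖y‖ ≤ R
      · have h1 := germ hfδ (hM (s • y)) hε.le hδ.le (hsR y hy) i a
        rw [pen_smul] at h1
        simp only [Matrix.smul_mul, Matrix.mul_smul, Matrix.smul_apply, smul_eq_mul] at h1
        have h2 : M (s • y) i a * pd b χ y -
            (f0 * (1 : Matrix (Fin n) (Fin n) ℝ) i a * pd b χ y +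
              s * (f1 * (pen L y i a * pd b χ y)) +
              s ^ 2 * (f2 * ((pen L y * pen L y) i a * pd b χ y))) =
            (M (s • y) i a - f0 * (1 : Matrix (Fin n) (Fin n) ℝ) i a -
              f1 * (s * pen L y i a) - f2 * (s * (s * (pen L y * pen L y) i a))) *
              pd b χ y := by ring
        rw [h2, abs_mul]
        refine mul_le_mul_of_nonneg_right (h1.trans ?_) (abs_nonneg _)
        have h3 : ∑ i, ∑ j, (s * pen L y i j) ^ 2 = s ^ 2 * ∑ i, ∑ j, pen L y i j ^ 2 := by
          rw [Finset.mul_sum]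
          refine Finset.sum_congr rfl fun i _ => ?_
          rw [Finset.mul_sum]
          exact Finset.sum_congr rfl fun j _ => by ring
        rw [h3]
        have h4 : ∑ i, ∑ j, pen L y i j ^ 2 ≤ penK L * R ^ 2 :=
          (pen_sq_le L y).trans (mul_le_mul_of_nonneg_left
            (pow_le_pow_left₀ (norm_nonneg _) hy 2) hK)
        calc ε * (s ^ 2 * ∑ i, ∑ j, pen L y i j ^ 2) ≤ ε * (s ^ 2 * (penK L * R ^ 2)) := by
              gcongr
          _ = _ := by ring
      · have h1 := hRpd b y (not_le.mp hy)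
        rw [h1]; simp
    -- integrability
    have hpdc : ∀ b, Continuous (pd b χ) := fun b => test_cont (pd_test hχ b)
    have hIpd : ∀ b, Integrable (pd b χ) := fun b =>
      (hpdc b).integrable_of_hasCompactSupport (pd_test hχ b).2
    have hI1 : ∀ a b, Integrable (fun y => pen L y i a * pd b χ y) := fun a b =>
      ((contDiff_pen L i a (m := 0)).continuous.mul (hpdc b)).integrable_of_hasCompactSupport
        (pd_test hχ b).2.mul_left
    have hI2 : ∀ a b, Integrable (fun y => (pen L y * pen L y) i a * pd b χ y) := fun a b =>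
      ((contDiff_pen_sq L i a (m := 0)).continuous.mul (hpdc b)).integrable_of_hasCompactSupport
        (pd_test hχ b).2.mul_left
    have hIp : ∀ a b, Integrable (fun y =>
        f0 * (1 : Matrix (Fin n) (Fin n) ℝ) i a * pd b χ y +
          s * (f1 * (pen L y i a * pd b χ y)) +
          s ^ 2 * (f2 * ((pen L y * pen L y) i a * pd b χ y))) := fun a b =>
      (((hIpd b).const_mul _).add (((hI1 a b).const_mul f1).const_mul s)).add
        (((hI2 a b).const_mul f2).const_mul (s ^ 2))
    have hId : ∀ a b, Integrable (fun y => M (s • y) i a * pd b χ y -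
        (f0 * (1 : Matrix (Fin n) (Fin n) ℝ) i a * pd b χ y +
          s * (f1 * (pen L y i a * pd b χ y)) +
          s ^ 2 * (f2 * ((pen L y * pen L y) i a * pd b χ y)))) := by
      intro a b
      refine Integrable.mono' ((hIpd b).abs.const_mul (ε * (penK L * R ^ 2) * s ^ 2)) ?_
        (Eventually.of_forall fun y => ?_)
      · refine AEStronglyMeasurable.sub ?_ (hIp a b).aestronglyMeasurable
        exact (((hMm i a).comp (measurable_const_smul s)).mul
          (hpdc b).measurable).aestronglyMeasurable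
      · rw [Real.norm_eq_abs]
        exact hpt a b y
    have hIM : ∀ a b, Integrable (fun y => M (s • y) i a * pd b χ y) := by
      intro a b
      have := (hId a b).add (hIp a b)
      refine this.congr (Eventually.of_forall fun y => ?_)
      simp
    -- `∫ ∂_b χ = 0`
    have hz : ∀ b, ∫ y, pd b χ y = 0 := by
      intro b
      have := ibp (g := fun _ => (1 : ℝ)) contDiff_const hχ b
      simp only [one_mul] at this
      rw [this]
      have h1 : ∀ x, pd b (fun _ : E n => (1 : ℝ)) x = 0 := by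
        intro x; unfold pd; simp
      simp_rw [h1]
      simp
    -- integrated estimate
    have hint : ∀ a b, |(∫ y, M (s • y) i a * pd b χ y) -
        (s * (f1 * ∫ y, pen L y i a * pd b χ y) +
          s ^ 2 * (f2 * ∫ y, (pen L y * pen L y) i a * pd b χ y))| ≤
        ε * (penK L * R ^ 2) * s ^ 2 * ∫ y, |pd b χ y| := by
      intro a b
      have h1 : ∫ y, (f0 * (1 : Matrix (Fin n) (Fin n) ℝ) i a * pd b χ y +
          s * (f1 * (pen L y i a * pd b χ y)) +
          s ^ 2 * (f2 * ((pen L y * pen L y) i a * pd b χ y))) =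
          s * (f1 * ∫ y, pen L y i a * pd b χ y) +
          s ^ 2 * (f2 * ∫ y, (pen L y * pen L y) i a * pd b χ y) := by
        have i1 : Integrable (fun y => f0 * (1 : Matrix (Fin n) (Fin n) ℝ) i a * pd b χ y) :=
          (hIpd b).const_mul _
        have i2 : Integrable (fun y => s * (f1 * (pen L y i a * pd b χ y))) :=
          ((hI1 a b).const_mul f1).const_mul s
        have i3 : Integrable (fun y => s ^ 2 * (f2 * ((pen L y * pen L y) i a * pd b χ y))) :=
          ((hI2 a b).const_mul f2).const_mul (s ^ 2)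
        have i12 : Integrable (fun y => f0 * (1 : Matrix (Fin n) (Fin n) ℝ) i a * pd b χ y +
          s * (f1 * (pen L y i a * pd b χ y))) := i1.add i2
        rw [integral_add i12 i3, integral_add i1 i2,
          integral_const_mul, integral_const_mul, integral_const_mul, integral_const_mul,
          integral_const_mul, hz]
        ring
      rw [← h1, ← integral_sub (hIM a b) (hIp a b)]
      refine (abs_integral_le_integral_abs).trans ?_
      rw [← integral_const_mul]
      exact integral_mono_of_nonneg (Eventually.of_forall fun y => abs_nonneg _)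
        ((hIpd b).abs.const_mul _) (Eventually.of_forall fun y => hpt a b y)
    have h1 := hint j k
    have h2 := hint k j
    have h3 := scale hw hs0 χ hχ i j k
    simp only at h3
    rw [h3] at h1
    have h4 : f1 * ((∫ y, pen L y i j * pd k χ y) - ∫ y, pen L y i k * pd j χ y) * s +
        f2 * ((∫ y, (pen L y * pen L y) i j * pd k χ y) -
          ∫ y, (pen L y * pen L y) i k * pd j χ y) * s ^ 2 =
        ((∫ y, M (s • y) i k * pd j χ y) -
          (s * (f1 * ∫ y, pen L y i k * pd j χ y) +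
            s ^ 2 * (f2 * ∫ y, (pen L y * pen L y) i k * pd j χ y))) -
        ((∫ y, M (s • y) i k * pd j χ y) -
          (s * (f1 * ∫ y, pen L y i j * pd k χ y) +
            s ^ 2 * (f2 * ∫ y, (pen L y * pen L y) i j * pd k χ y))) := by ring
    rw [h4]
    refine (abs_sub _ _).trans ((add_le_add h2 h1).trans (le_of_eq ?_))
    rw [hC]; ring
  -- first order
  have ht : ∀ i j k, L k i j = L j i k := by
    intro i j k
    have h1 : ∀ x : E n, (fun _ : E n => L k i j - L j i k) x = 0 := by
      apply eq_zero_of_test continuous_const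
      intro χ hχ
      have h2 := (main χ hχ i j k).1
      have h3 := (mul_eq_zero.mp h2).resolve_left hf1
      rw [ibp (contDiff_pen L i j) hχ k, ibp (contDiff_pen L i k) hχ j] at h3
      simp_rw [pd_pen] at h3
      rw [integral_const_mul, integral_const_mul] at h3
      rw [integral_const_mul]
      linarith
    have := h1 0
    simp only at this
    linarith
  have ht' : ∀ a b c, L a b c = L b a c := by
    have hs' : ∀ a b c, L a b c = L a c b := by
      intro a b c
      have := congrFun (congrFun (hs a) c) b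
      rw [Matrix.transpose_apply] at this
      exact this
    intro a b c
    rw [hs' a b c, ht c b a, hs' b c a]
  refine ⟨ht', comm_of_second L hs ht' ?_⟩
  -- second order
  intro l i j k
  have h1 : ∀ x : E n, (fun x : E n => (L k * pen L x + pen L x * L k) i j -
      (L j * pen L x + pen L x * L j) i k) x = 0 := by
    have hc : ∀ a b c, Continuous fun x : E n => (L a * pen L x + pen L x * L a) b c := by
      intro a b c
      simp_rw [Matrix.add_apply, Matrix.mul_apply]
      exact (continuous_finsetSum _ fun d _ => continuous_const.mul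
        (contDiff_pen L _ _ (m := 0)).continuous).add
        (continuous_finsetSum _ fun d _ => (contDiff_pen L _ _ (m := 0)).continuous.mul
          continuous_const)
    apply eq_zero_of_test ((hc _ _ _).sub (hc _ _ _))
    intro χ hχ
    have h2 := (main χ hχ i j k).2
    have h3 := (mul_eq_zero.mp h2).resolve_left hf2
    rw [ibp (contDiff_pen_sq L i j) hχ k, ibp (contDiff_pen_sq L i k) hχ j] at h3
    simp_rw [pd_pen_sq] at h3
    have hI : ∀ a b c, Integrable fun x : E n =>
        (L a * pen L x + pen L x * L a) b c * χ x := fun a b c =>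
      ((hc a b c).mul (test_cont hχ)).integrable_of_hasCompactSupport hχ.2.mul_left
    have h4 : ∀ x : E n, ((L k * pen L x + pen L x * L k) i j -
        (L j * pen L x + pen L x * L j) i k) * χ x =
        (L k * pen L x + pen L x * L k) i j * χ x -
        (L j * pen L x + pen L x * L j) i k * χ x := fun x => by ring
    refine (integral_congr_ae (Eventually.of_forall h4)).trans ?_
    rw [integral_sub (hI _ _ _) (hI _ _ _)]
    linarith
  have h2 := h1 (ei l)
  simp only [pen_ei] at h2
  linarith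

end Vale.Agent.P254.SP.H372
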